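import Mathlib
import Vale.Agent.P078.TwoMove
import Vale.Agent.P078.Type3.State

/-! Second order expansion of a barrier along a move, without a trace. -/

noncomputable section

open scoped ComplexOrder

set_option linter.unusedSectionVars false

namespace Vale.Agent.P078.T3.Moves

open Chan Res

universe u v

variable {M : Type u} [CStarAlgebra M] [PartialOrder M] [StarOrderedRing M]
  {Ω : Type v} [TopologicalSpace Ω] [CompactSpace Ω] [T2Space Ω] (T : SMasa M Ω)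

lemma abs_E_le (x : M) (ω : Ω) : |T.E x ω| ≤ ‖x‖ := by
  have e : T.E x = T.E ((1 / 2 : ℝ) • (x + star x)) := by
    rw [map_smul, map_add, T.E_star]
    module
  rw [e]
  refine (T.E_le_norm ((IsSelfAdjoint.all (1 / 2 : ℝ)).smul (IsSelfAdjoint.add_star_self x)) ω).trans
    ?_
  rw [norm_smul, Real.norm_eq_abs, abs_of_pos (by norm_num : (0:ℝ) < 1 / 2)]
  have := norm_add_le x (star x)
  rw [norm_star] at this
  linarith

/-- the second order expansion of the resolvent -/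
lemma resExpand {γ : ℝ} {v Z N : M} (hb : Band γ Z N) (hv1 : ‖v‖ ≤ 1) (hv : IsSelfAdjoint v) {ρ t H R₀ : ℝ}
    (hρ : 0 ≤ ρ) (hρ' : ρ ≤ R₀) (ht0 : 0 ≤ t) (ht1 : t ≤ 1) {h h2 : C(Ω, ℝ)} (hh : ‖h‖ ≤ H)
    (hh2 : ‖h2‖ ≤ H) (htH : 2 * t * H ≤ γ) :
    γ • (1 : M) ≤ Z - Dop v N ρ t (T.emb h) (T.emb h2) ∧
    ‖res (Z - Dop v N ρ t (T.emb h) (T.emb h2)) -
      (res Z + t • (res Z * (N * (v * T.emb h * v) * N) * res Z)
        + t ^ 2 • (res Z * (N * (v * T.emb h2 * v) * N - ρ • (1 - N)) * res Z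
          + res Z * (N * (v * T.emb h * v) * N) * res Z * (N * (v * T.emb h * v) * N) * res Z))‖
      ≤ 11 * (1 / γ + 1) ^ 4 * (2 * H + R₀ + 1) ^ 3 * t ^ 3 := by
  have hH : 0 ≤ H := (norm_nonneg h).trans hh
  have hγ := hb.pos
  set D1 := N * (v * T.emb h * v) * N with hD1d
  set D2 := N * (v * T.emb h2 * v) * N - ρ • (1 - N) with hD2d
  set D := Dop v N ρ t (T.emb h) (T.emb h2) with hDd
  set G := res Z
  have hn1 : ∀ f : C(Ω, ℝ), ‖N * (v * T.emb f * v) * N‖ ≤ ‖f‖ := fun f => by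
    refine (norm_mul_le _ _).trans ?_
    refine (mul_le_mul_of_nonneg_right (norm_mul_le _ _) (norm_nonneg _)).trans ?_
    have h1 := proj_norm_le hb.proj
    calc ‖N‖ * ‖v * T.emb f * v‖ * ‖N‖ ≤ 1 * ‖T.emb f‖ * 1 := by
          gcongr; exact norm_sandwich_le hv1 _
      _ = ‖f‖ := by rw [T.emb_norm]; ring
  set K := 2 * H + R₀ + 1 with hK
  have hK1 : 1 ≤ K := by linarith
  have hD1 : ‖D1‖ ≤ K := (hn1 h).trans (by linarith)
  have hD2 : ‖D2‖ ≤ K := by
    refine (norm_sub_le _ _).trans ?_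
    have h4 : ‖ρ • (1 - N)‖ ≤ ρ := by
      rw [norm_smul, Real.norm_eq_abs, abs_of_nonneg hρ]
      exact mul_le_of_le_one_right hρ (proj_norm_le hb.projC)
    linarith [hn1 h2]
  have eD : D = t • D1 + t ^ 2 • D2 := by
    rw [hDd, hD1d, hD2d, Dop]
    simp only [mul_add, add_mul, mul_smul_comm, smul_mul_assoc, smul_sub, smul_smul]
    abel
  have hgap : γ • (1 : M) ≤ Z - D := by
    refine hb.gap_sub_Dop hv hρ (T.emb_selfAdjoint h) (T.emb_selfAdjoint h2) ?_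
    refine (norm_sandwich_le hv1 _).trans ?_
    rw [← map_smul, ← map_smul, ← map_add, T.emb_norm]
    refine (norm_add_le _ _).trans ?_
    rw [norm_smul, norm_smul, Real.norm_eq_abs, Real.norm_eq_abs, abs_of_nonneg ht0,
      abs_of_nonneg (sq_nonneg t)]
    have : t ^ 2 ≤ t := by nlinarith
    nlinarith [mul_le_mul_of_nonneg_left hh ht0, mul_le_mul this hh2 (norm_nonneg _) ht0]
  refine ⟨hgap, ?_⟩
  have hexp := res_expand hb.pos hb.gap hgap
  have hGn : ‖G‖ ≤ 1 / γ := norm_res_le hb.pos hb.gap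
  have hDn : ‖D‖ ≤ 2 * K * t := by
    rw [eD]
    refine (norm_add_le _ _).trans ?_
    rw [norm_smul, norm_smul, Real.norm_eq_abs, Real.norm_eq_abs, abs_of_nonneg ht0,
      abs_of_nonneg (sq_nonneg t)]
    have : t ^ 2 ≤ t := by nlinarith
    nlinarith [mul_le_mul_of_nonneg_left hD1 ht0, mul_le_mul this hD2 (norm_nonneg _) ht0]
  have e : G + G * D * G + G * D * G * D * G -
      (G + t • (G * D1 * G) + t ^ 2 • (G * D2 * G + G * D1 * G * D1 * G))
      = t ^ 3 • (G * D1 * G * D2 * G + G * D2 * G * D1 * G) + t ^ 4 • (G * D2 * G * D2 * G) := by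
    rw [eD]
    simp only [mul_add, add_mul, mul_smul_comm, smul_mul_assoc, smul_add, smul_smul, ← pow_two,
      ← pow_succ, ← pow_succ']
    ring_nf
    module
  have hterm : ∀ A B : M, ‖A‖ ≤ K → ‖B‖ ≤ K → ‖G * A * G * B * G‖ ≤ (1 / γ) ^ 3 * K ^ 2 := by
    intro A B hA hB
    calc ‖G * A * G * B * G‖ ≤ ‖G‖ * ‖A‖ * ‖G‖ * ‖B‖ * ‖G‖ := by
          refine (norm_mul_le _ _).trans (mul_le_mul_of_nonneg_right ?_ (norm_nonneg _))
          refine (norm_mul_le _ _).trans (mul_le_mul_of_nonneg_right ?_ (norm_nonneg _))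
          refine (norm_mul_le _ _).trans (mul_le_mul_of_nonneg_right ?_ (norm_nonneg _))
          exact norm_mul_le _ _
      _ ≤ (1 / γ) * K * (1 / γ) * K * (1 / γ) := by gcongr
      _ = _ := by ring
  set q := 1 / γ + 1 with hq
  have hq1 : 1 ≤ q := by have : 0 < 1 / γ := by positivity
                         linarith
  have hqγ : 1 / γ ≤ q := by linarith
  refine (norm_sub_le_norm_sub_add_norm_sub _
    (G + G * D * G + G * D * G * D * G) _).trans ?_
  have h5 : (1 / γ) ^ 4 * ‖D‖ ^ 3 ≤ q ^ 4 * (2 * K * t) ^ 3 := by gcongr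
  have h6 : (1 / γ) ^ 3 * K ^ 2 ≤ q ^ 4 * K ^ 3 := by
    have h7 : (1 / γ) ^ 3 ≤ q ^ 4 :=
      (pow_le_pow_left₀ (by positivity) hqγ 3).trans (pow_le_pow_right₀ hq1 (by norm_num))
    have h8 : K ^ 2 ≤ K ^ 3 := pow_le_pow_right₀ hK1 (by norm_num)
    gcongr
  rw [e]
  refine le_trans (add_le_add hexp (norm_add_le _ _)) ?_
  simp only [norm_smul, Real.norm_eq_abs, abs_of_nonneg (pow_nonneg ht0 3),
    abs_of_nonneg (pow_nonneg ht0 4)]
  have h9 := (norm_add_le _ _).trans (add_le_add (hterm D1 D2 hD1 hD2) (hterm D2 D1 hD2 hD1))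
  have h10 := hterm D2 D2 hD2 hD2
  have ht4 : t ^ 4 ≤ t ^ 3 := pow_le_pow_of_le_one ht0 ht1 (by norm_num)
  have := mul_le_mul_of_nonneg_left (h9.trans (add_le_add h6 h6)) (pow_nonneg ht0 3)
  have := mul_le_mul ht4 (h10.trans h6) (norm_nonneg _) (pow_nonneg ht0 3)
  have h11 : 0 ≤ t ^ 3 * (q ^ 4 * K ^ 3) := by positivity
  nlinarith


variable {T}

/-- expansion of the barrier -/
lemma avalExpand {γ : ℝ} {v Z N : M} (hb : Band γ Z N) (hv1 : ‖v‖ ≤ 1) (hv : IsSelfAdjoint v)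
    {ρ t H R₀ : ℝ} (hρ : 0 ≤ ρ) (hρ' : ρ ≤ R₀) (ht0 : 0 ≤ t) (ht1 : t ≤ 1) {h h2 : C(Ω, ℝ)}
    (hh : ‖h‖ ≤ H) (hh2 : ‖h2‖ ≤ H) (htH : 2 * t * H ≤ γ) (ω : Ω) :
    Exp3 (11 * (1 / γ + 1) ^ 4 * (2 * H + R₀ + 1) ^ 3) t
        (T.E (v * res (Z - Dop v N ρ t (T.emb h) (T.emb h2)) * v) ω)
        (T.E (v * res Z * v) ω) (T.K (Xp v Z N) h ω)
        (T.K (Xp v Z N) h2 ω - ρ * T.E (Bop v Z N) ω
          + T.E (Xp v Z N * T.emb h * Xp v Z N * T.emb h * Xp v Z N) ω) := by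
  obtain ⟨-, hexp⟩ := resExpand T hb hv1 hv hρ hρ' ht0 ht1 hh hh2 htH

  set C := 11 * (1 / γ + 1) ^ 4 * (2 * H + R₀ + 1) ^ 3
  have hH : 0 ≤ H := (norm_nonneg h).trans hh
  have hγ := hb.pos
  have hR : 0 ≤ R₀ := hρ.trans hρ'
  set q := 1 / γ + 1 with hq
  have hqγ : 1 / γ ≤ q := by linarith
  have hq1 : 1 ≤ q := by have : 0 < 1 / γ := by positivity
                         linarith
  set K := 2 * H + R₀ + 1 with hK
  have hK1 : 1 ≤ K := by linarith
  have hC : q ^ 2 * K ≤ C / 3 ∧ q ^ 3 * K ^ 2 ≤ C / 3 ∧ q ≤ C := by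
    have e : C = 11 * (q ^ 4 * K ^ 3) := by simp only [C, ← hq, ← hK]; ring
    have b1 : q ^ 2 * K ≤ q ^ 4 * K ^ 3 := mul_le_mul (pow_le_pow_right₀ hq1 (by norm_num))
      (le_self_pow₀ hK1 (by norm_num)) (by linarith) (by positivity)
    have b2 : q ^ 3 * K ^ 2 ≤ q ^ 4 * K ^ 3 := mul_le_mul (pow_le_pow_right₀ hq1 (by norm_num))
      (pow_le_pow_right₀ hK1 (by norm_num)) (by positivity) (by positivity)
    have b3 : q ≤ q ^ 4 * K ^ 3 :=
      (le_self_pow₀ hq1 (by norm_num)).trans (le_mul_of_one_le_right (by positivity)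
        (one_le_pow₀ hK1))
    refine ⟨?_, ?_, ?_⟩ <;> rw [e] <;> linarith
  have hX : ‖Xp v Z N‖ ≤ q := (hb.norm_Xp_le hv1).trans hqγ
  have hKb : ∀ f : C(Ω, ℝ), ‖f‖ ≤ K → |T.K (Xp v Z N) f ω| ≤ q ^ 2 * K := fun f hf => by
    rw [SMasa.K_apply, (hb.Xp_sa hv).star_eq]
    refine (abs_E_le T _ _).trans ((norm_mul_le _ _).trans ?_)
    refine (mul_le_mul (norm_mul_le _ _) hX (norm_nonneg _) (by positivity)).trans ?_
    rw [T.emb_norm]
    calc ‖Xp v Z N‖ * ‖f‖ * q ≤ q * K * q := by gcongr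
      _ = _ := by ring
  refine ⟨?_, ?_, ?_, ?_⟩
  · refine (abs_E_le T _ _).trans ((norm_sandwich_le hv1 _).trans ?_)
    exact ((norm_res_le hb.pos hb.gap).trans hqγ).trans hC.2.2
  · have h0 : 0 ≤ q ^ 2 * K := by positivity
    linarith [hKb h (hh.trans (by linarith))]
  · have a1 := hKb h2 (hh2.trans (by linarith))
    have a2 : |ρ * T.E (Bop v Z N) ω| ≤ q ^ 2 * K := by
      rw [abs_mul, abs_of_nonneg hρ, mul_comm]
      refine mul_le_mul ((abs_E_le T _ _).trans ((hb.norm_Bop_le hv1).trans ?_)) (by linarith) hρ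
        (by positivity)
      exact pow_le_pow_left₀ (by positivity) hqγ 2
    have a3 : |T.E (Xp v Z N * T.emb h * Xp v Z N * T.emb h * Xp v Z N) ω| ≤ q ^ 3 * K ^ 2 := by
      refine (abs_E_le T _ _).trans ((norm_mul_le _ _).trans ?_)
      refine (mul_le_mul ((norm_mul_le _ _).trans (mul_le_mul ((norm_mul_le _ _).trans
        (mul_le_mul (norm_mul_le _ _) hX (norm_nonneg _) (by positivity))) le_rfl (norm_nonneg _)
        (by positivity))) hX (norm_nonneg _) (by positivity)).trans ?_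
      rw [T.emb_norm]
      have hhK : ‖h‖ ≤ K := hh.trans (by linarith)
      calc ‖Xp v Z N‖ * ‖h‖ * q * ‖h‖ * q ≤ q * K * q * K * q := by gcongr
        _ = _ := by ring
    refine (abs_add_le _ _).trans ((add_le_add (abs_sub _ _) le_rfl).trans ?_)
    linarith [hC.1, hC.2.1]
  have hc := hb.commG
  have hcc := hb.commGC
  have hNN := hb.proj.isIdempotentElem.eq
  have hGNG : v * res Z * N = v * (res Z * N) := mul_assoc _ _ _
  have s1 : v * (res Z * (N * (v * T.emb h * v) * N) * res Z) * v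
      = Xp v Z N * T.emb h * Xp v Z N := by
    simp only [Xp, mul_assoc]
    rw [← mul_assoc N (res Z) v, hc.eq, mul_assoc]
  have s2 : ∀ f : C(Ω, ℝ), v * (res Z * (N * (v * T.emb f * v) * N - ρ • (1 - N)) * res Z) * v
      = Xp v Z N * T.emb f * Xp v Z N - ρ • Bop v Z N := by
    intro f
    simp only [mul_sub, sub_mul, mul_smul_comm, smul_mul_assoc]
    congr 1
    · simp only [Xp, mul_assoc]
      rw [← mul_assoc N (res Z) v, hc.eq, mul_assoc]
    · rw [← sub_mul, ← mul_sub, ← sub_mul, ← mul_sub]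
      congr 1
      simp only [Bop, mul_assoc]
      rw [← mul_assoc (1 - N) (res Z) v, hcc.eq, mul_assoc]
  have s3 : v * (res Z * (N * (v * T.emb h * v) * N) * res Z * (N * (v * T.emb h * v) * N) * res Z)
      * v = Xp v Z N * T.emb h * Xp v Z N * T.emb h * Xp v Z N := by
    simp only [Xp, mul_assoc]
    rw [← mul_assoc N (res Z) (N * _), hc.eq, mul_assoc, ← mul_assoc N N, hNN,
      ← mul_assoc N (res Z) v, hc.eq, mul_assoc]
  have key : T.K (Xp v Z N) h ω = T.E (Xp v Z N * T.emb h * Xp v Z N) ω ∧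
      T.K (Xp v Z N) h2 ω = T.E (Xp v Z N * T.emb h2 * Xp v Z N) ω := by
    simp only [SMasa.K_apply, (hb.Xp_sa hv).star_eq, and_self]
  rw [key.1, key.2]
  set W := res Z + t • (res Z * (N * (v * T.emb h * v) * N) * res Z)
        + t ^ 2 • (res Z * (N * (v * T.emb h2 * v) * N - ρ • (1 - N)) * res Z
          + res Z * (N * (v * T.emb h * v) * N) * res Z * (N * (v * T.emb h * v) * N) * res Z) with hW
  have hWe : T.E (v * W * v) ω = T.E (v * res Z * v) ω
      + t * T.E (Xp v Z N * T.emb h * Xp v Z N) ω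
      + t ^ 2 * (T.E (Xp v Z N * T.emb h2 * Xp v Z N) ω - ρ * T.E (Bop v Z N) ω
        + T.E (Xp v Z N * T.emb h * Xp v Z N * T.emb h * Xp v Z N) ω) := by
    rw [hW, mul_add, add_mul, mul_add, add_mul, mul_smul_comm, smul_mul_assoc, mul_smul_comm,
      smul_mul_assoc, mul_add, add_mul, s1, s2, s3]
    simp
    ring
  rw [← hWe, ← ContinuousMap.sub_apply, ← map_sub, ← sub_mul, ← mul_sub]
  exact (abs_E_le T _ _).trans ((norm_sandwich_le hv1 _).trans hexp)


end Vale.Agent.P078.T3.Moves
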