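import Mathlib
import Vale.Agent.P078.TwoLower
import Vale.Agent.P078.Type3.Specs5

/-! Lowering channels never costs potential: assignment and cleanup of the trace-free walk. -/

noncomputable section

open scoped ComplexOrder

set_option linter.unusedSectionVars false

namespace Vale.Agent.P078.T3.Moves

open TMasa (ypm vpm)

universe u v

variable {M : Type u} [CStarAlgebra M] [PartialOrder M] [StarOrderedRing M]
  {Ω : Type v} [TopologicalSpace Ω] [CompactSpace Ω] [T2Space Ω]
  {T : SMasa M Ω} {P : Params} {x : M}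

lemma beta0_bounds (hok : P.Ok) : 0 < P.β₀ ∧ P.β₀ ≤ 1 := by
  have := hok.ε_pos
  refine ⟨by unfold Params.β₀; positivity, ?_⟩
  unfold Params.β₀
  nlinarith [hok.ε_le]

lemma fval_apply (hε : 0 < P.ε) (st : TSt M Ω P.r) (i : Fin P.r) (ω : Ω) :
    T.fval P x st i ω =
      Two.psiC P.ε (st.sig i ω) - Two.phi (st.sig i ω) * T.Asum P x st i ω := by
  simp [SMasa.fval, cphi2, cpsi2, hε]

lemma Fval_apply (st : TSt M Ω P.r) (ω : Ω) :
    T.Fval P x st ω = ∑ i, (T.fval P x st i ω + P.β₀ * (1 - T.act P st i ω)) := by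
  simp [SMasa.Fval, Finset.sum_add_distrib, ← Finset.mul_sum]

lemma xval_apply (st : TSt M Ω P.r) (ω : Ω) : T.xval P x st ω = P.L - T.Fval P x st ω := by
  simp [SMasa.xval]

lemma aval_nonneg' {γ : ℝ} (hγ : 0 < γ) {st : TSt M Ω P.r} {i : Fin P.r} {s : Bool}
    (hgap : γ • (1 : M) ≤ T.Zop P x st i s) (ω : Ω) : 0 ≤ T.aval P x st i s ω :=
  T.E_nonneg ((TMasa.isSelfAdjoint_vpm x s).conjugate_nonneg (Res.res_nonneg hγ hgap)) ω

lemma Asum_nonneg' {γ : ℝ} (hγ : 0 < γ) {st : TSt M Ω P.r} {i : Fin P.r}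
    (hgap : ∀ s, γ • (1 : M) ≤ T.Zop P x st i s) (ω : Ω) : 0 ≤ T.Asum P x st i ω :=
  add_nonneg (aval_nonneg' hγ (hgap true) ω) (aval_nonneg' hγ (hgap false) ω)

lemma Zop_mono {st st' : TSt M Ω P.r} (hR : st'.R = st.R) (hσ : ∀ i, st'.sig i ≤ st.sig i)
    (i : Fin P.r) (s : Bool) : T.Zop P x st i s ≤ T.Zop P x st' i s := by
  rw [SMasa.Zop, SMasa.Zop, hR]
  exact add_le_add (sub_le_sub_left
    ((TMasa.isSelfAdjoint_vpm x s).conjugate_le_conjugate (T.emb_mono (hσ i))) _) le_rfl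

lemma Asum_mono {γ : ℝ} (hγ : 0 < γ) {st st' : TSt M Ω P.r} (hR : st'.R = st.R)
    (hσ : ∀ i, st'.sig i ≤ st.sig i) {i : Fin P.r}
    (hgap : ∀ s, γ • (1 : M) ≤ T.Zop P x st i s) :
    T.Asum P x st' i ≤ T.Asum P x st i :=
  add_le_add
    (T.E_mono ((TMasa.isSelfAdjoint_vpm x true).conjugate_le_conjugate
      (Res.res_antitone hγ (hgap true) (Zop_mono hR hσ i true))))
    (T.E_mono ((TMasa.isSelfAdjoint_vpm x false).conjugate_le_conjugate
      (Res.res_antitone hγ (hgap false) (Zop_mono hR hσ i false))))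

lemma act_mono {st st' : TSt M Ω P.r} (hσ : ∀ i, st'.sig i ≤ st.sig i) (i : Fin P.r) :
    T.act P st' i ≤ T.act P st i :=
  T.pos_le_pos fun ω h => h.trans_le (hσ i ω)

/-- at a channel which is not changed the payment does not decrease -/
lemma pay_mono (hok : P.Ok) {γ : ℝ} (hγ : 0 < γ) {st st' : TSt M Ω P.r} (hR : st'.R = st.R)
    (hσ : ∀ i, st'.sig i ≤ st.sig i) {i : Fin P.r}
    (hgap : ∀ s, γ • (1 : M) ≤ T.Zop P x st i s) {ω : Ω} (he : st'.sig i ω = st.sig i ω)
    (h0 : 0 ≤ st.sig i ω) (h1 : st.sig i ω ≤ 1) :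
    T.fval P x st i ω ≤ T.fval P x st' i ω := by
  rw [fval_apply hok.ε_pos, fval_apply hok.ε_pos, he]
  have ha : T.Asum P x st' i ω ≤ T.Asum P x st i ω := Asum_mono hγ hR hσ hgap ω
  nlinarith [mul_le_mul_of_nonneg_left ha (Two.phi_nonneg h0 h1)]

/-- the linear part of the potential is nonnegative -/
lemma xval_off_nonneg (hok : P.Ok) {γ : ℝ} (hγ : 0 < γ) {st : TSt M Ω P.r}
    (h0 : ∀ i, 0 ≤ st.sig i) (h1 : ∀ i ω, st.sig i ω ≤ 1 - P.ε)
    (hgap : ∀ i s, γ • (1 : M) ≤ T.Zop P x st i s) (ω : Ω) :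
    0 ≤ T.xval P x st ω + P.off := by
  have hb := beta0_bounds hok
  have hε := hok.ε_pos
  have hF : T.Fval P x st ω ≤ ∑ _i : Fin P.r, (5 : ℝ) := by
    rw [Fval_apply]
    refine Finset.sum_le_sum fun i _ => ?_
    have hs0 : 0 ≤ st.sig i ω := h0 i ω
    have hs1 := h1 i ω
    have hpsi := Two.psi_le_four_mul hε hs0 hs1
    have hA := Asum_nonneg' hγ (hgap i) ω
    have hφ := Two.phi_nonneg hs0 (by linarith : st.sig i ω ≤ 1)
    have hact : 0 ≤ T.act P st i ω := idem_nonneg (T.pos_mul_self _) ω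
    rw [fval_apply hε, Two.psiC, min_eq_left (by linarith : st.sig i ω ≤ 1)]
    nlinarith [mul_nonneg hφ hA, mul_nonneg hb.1.le hact]
  rw [Finset.sum_const, Finset.card_univ, Fintype.card_fin, nsmul_eq_mul] at hF
  rw [xval_apply, Params.off]
  linarith [hok.L_ge]

/-- lowering channels without decreasing the constraint does not cost potential -/
theorem Vpot_lower (hok : P.Ok) {S : Smalls} (hμ : 0 ≤ S.μ) (hγ : 0 < S.γ)
    {st st' : TSt M Ω P.r} (hl : st.live * st.live = st.live)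
    (hl' : st'.live * st'.live = st'.live) (hll : st'.live ≤ st.live)
    (h0 : ∀ i, 0 ≤ st.sig i) (h1 : ∀ i ω, st.sig i ω ≤ 1 - P.ε)
    (hgap : ∀ i s, S.γ • (1 : M) ≤ T.Zop P x st i s) (hR : st'.R = st.R)
    (hσ : ∀ i, st'.sig i ≤ st.sig i)
    (hF : ∀ ω, st'.live ω = 1 → T.Fval P x st ω ≤ T.Fval P x st' ω) :
    T.Vpot P x S st' ≤ T.Vpot P x S st := by
  have hkey : st'.live * (chub2 (T.xval P x st')
        + S.μ • (T.xval P x st' + ContinuousMap.const Ω P.off))
      ≤ st.live * (chub2 (T.xval P x st)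
        + S.μ • (T.xval P x st + ContinuousMap.const Ω P.off)) := fun ω => by
    show st'.live ω * (Profile.hub (T.xval P x st' ω) + S.μ * (T.xval P x st' ω + P.off))
      ≤ st.live ω * (Profile.hub (T.xval P x st ω) + S.μ * (T.xval P x st ω + P.off))
    rcases idem_zero_or_one hl' ω with h | h
    · rw [h, zero_mul]
      exact mul_nonneg (idem_nonneg hl ω) (add_nonneg (Profile.hub_nonneg _)
        (mul_nonneg hμ (xval_off_nonneg hok hγ h0 h1 hgap ω)))
    · have hl1 : st.live ω = 1 := le_antisymm (idem_le_one hl ω) (h ▸ hll ω)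
      rw [h, hl1, one_mul, one_mul]
      have hx : T.xval P x st' ω ≤ T.xval P x st ω := by
        rw [xval_apply, xval_apply]
        linarith [hF ω h]
      exact add_le_add (Profile.hub_mono hx) (mul_le_mul_of_nonneg_left (by linarith) hμ)
  have e1 := T.tau_mono hkey
  have e2 : S.μ * (∑ i, T.tau (st'.sig i)) ≤ S.μ * (∑ i, T.tau (st.sig i)) :=
    mul_le_mul_of_nonneg_left (Finset.sum_le_sum fun i _ => T.tau_mono (hσ i)) hμ
  have e3 : S.μ * (∑ i, T.tau (T.Asum P x st' i)) ≤ S.μ * (∑ i, T.tau (T.Asum P x st i)) :=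
    mul_le_mul_of_nonneg_left
      (Finset.sum_le_sum fun i _ => T.tau_mono (Asum_mono hγ hR hσ (hgap i))) hμ
  rw [SMasa.Vpot, SMasa.Vpot, hR]
  linarith

/-- channels that reached the top are assigned -/
theorem assignSpec (T : SMasa M Ω) (P : Params) (x : M) : T.AssignSpec P x := by
  intro hok S st hμ hγ _ _ _ hl h0 h1 hR hgap hoff
  have hε := hok.ε_pos
  have hε1 := hok.ε_le
  set U : Fin P.r → C(Ω, ℝ) := fun i =>
    T.pos (st.sig i - ContinuousMap.const Ω (1 - 2 * P.ε)) * st.live with hU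
  set V : Fin P.r → C(Ω, ℝ) := fun i => U i * ∏ j ∈ Finset.Iio i, (1 - U j) with hV
  set W : C(Ω, ℝ) := ∑ i, V i with hW
  have hUU : ∀ i, U i * U i = U i := fun i => by
    simp only [hU]; rw [mul_mul_mul_comm, T.pos_mul_self, hl]
  have hUlive : ∀ i ω, U i ω = 1 → st.live ω = 1 ∧ 1 - 2 * P.ε ≤ st.sig i ω := by
    intro i ω h
    simp only [hU, ContinuousMap.mul_apply] at h
    rcases idem_zero_or_one hl ω with h1 | h1
    · rw [h1, mul_zero] at h; exact absurd h zero_ne_one
    · rw [h1, mul_one] at h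
      have := T.nonneg_of_pos_eq_one h
      simp only [ContinuousMap.sub_apply, ContinuousMap.const_apply] at this
      exact ⟨h1, by linarith⟩
  have hfree : ∀ i ω, U i ω = 0 → st.live ω = 1 → st.sig i ω ≤ 1 - 2 * P.ε := by
    intro i ω h h1
    simp only [hU, ContinuousMap.mul_apply, h1, mul_one] at h
    have := T.nonpos_of_pos_eq_zero h
    simp only [ContinuousMap.sub_apply, ContinuousMap.const_apply] at this
    linarith
  have hpt : ∀ ω, (W ω = 0 ∧ (∀ i, V i ω = 0) ∧ ∀ i, U i ω = 0) ∨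
      (W ω = 1 ∧ ∃ i, U i ω = 1 ∧ V i ω = 1 ∧ ∀ j, j ≠ i → V j ω = 0) := by
    intro ω
    have hVω : ∀ i, V i ω = U i ω * ∏ j ∈ Finset.Iio i, (1 - U j ω) := fun i => by
      simp [hV, ContinuousMap.prod_apply]
    by_cases hex : ∃ i, U i ω = 1
    · right
      set s := Finset.univ.filter fun i => U i ω = 1 with hs
      have hne : s.Nonempty := by
        obtain ⟨i, hi⟩ := hex
        exact ⟨i, by simp [hs, hi]⟩
      set i := s.min' hne
      have hi : U i ω = 1 := by
        have := s.min'_mem hne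
        simpa [hs] using this
      have hlt : ∀ j, j < i → U j ω = 0 := fun j hj =>
        (idem_zero_or_one (hUU j) ω).resolve_right fun h =>
          absurd (s.min'_le j (by simp [hs, h])) (not_le.2 hj)
      have hVi : V i ω = 1 := by
        rw [hVω, hi, one_mul]
        exact Finset.prod_eq_one fun j hj => by simp [hlt j (Finset.mem_Iio.1 hj)]
      have hVj : ∀ j, j ≠ i → V j ω = 0 := fun j hj => by
        rcases lt_or_gt_of_ne hj with h | h
        · rw [hVω, hlt j h, zero_mul]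
        · rw [hVω, Finset.prod_eq_zero (Finset.mem_Iio.2 h) (by simp [hi]), mul_zero]
      refine ⟨?_, i, hi, hVi, hVj⟩
      rw [hW, ContinuousMap.sum_apply, Finset.sum_eq_single i (fun j _ hj => hVj j hj) (by simp),
        hVi]
    · left
      have hU0 : ∀ i, U i ω = 0 := fun i =>
        (idem_zero_or_one (hUU i) ω).resolve_right fun h => hex ⟨i, h⟩
      have hV0 : ∀ i, V i ω = 0 := fun i => by rw [hVω, hU0, zero_mul]
      exact ⟨by simp [hW, ContinuousMap.sum_apply, hV0], hV0, hU0⟩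
  set σ' : Fin P.r → C(Ω, ℝ) := fun i => (1 - 2 * P.ε) • V i + (1 - W) * st.sig i with hσ'
  set l' : C(Ω, ℝ) := st.live * (1 - W) with hl'
  have hval : ∀ i ω, σ' i ω = (1 - 2 * P.ε) * V i ω + (1 - W ω) * st.sig i ω := fun i ω => rfl
  have hlval : ∀ ω, l' ω = st.live ω * (1 - W ω) := fun ω => rfl
  have hbnd : ∀ i ω, 0 ≤ σ' i ω ∧ σ' i ω ≤ st.sig i ω ∧ σ' i ω ≤ 1 - 2 * P.ε := by
    intro i ω
    have hs : 0 ≤ st.sig i ω := h0 i ω
    rcases hpt ω with ⟨hW0, hV0, hU0⟩ | ⟨hW1, i₀, hU1, hV1, hVj⟩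
    · rw [hval, hW0, hV0]
      refine ⟨by simpa using hs, by simp, ?_⟩
      rcases idem_zero_or_one hl ω with h1 | h1
      · obtain ⟨k, hk, hk'⟩ := hoff ω h1
        rcases eq_or_ne i k with rfl | hne
        · simp [hk]
        · simp [hk' i hne]; linarith
      · simpa using hfree i ω (hU0 i) h1
    · rw [hval, hW1]
      rcases eq_or_ne i i₀ with rfl | hne
      · rw [hV1]
        refine ⟨by linarith, by linarith [(hUlive i ω hU1).2], by linarith⟩
      · rw [hVj i hne]
        refine ⟨by simp, by simpa using hs, by linarith⟩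
  have hle : ∀ i, σ' i ≤ st.sig i := fun i => ContinuousMap.le_def.2 fun ω => (hbnd i ω).2.1
  have hl'l' : l' * l' = l' := by
    ext ω
    rcases idem_zero_or_one hl ω with h | h <;> rcases hpt ω with ⟨h', -⟩ | ⟨h', -⟩ <;>
      simp [hlval, h, h']
  have hll : l' ≤ st.live := ContinuousMap.le_def.2 fun ω => by
    rcases idem_zero_or_one hl ω with h | h <;> rcases hpt ω with ⟨h', -⟩ | ⟨h', -⟩ <;>
      simp [hlval, h, h']
  refine ⟨⟨σ', st.R, l'⟩, ⟨hl'l', fun i => ContinuousMap.le_def.2 fun ω => (hbnd i ω).1,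
    fun i ω => (hbnd i ω).2.2, fun ω h => ?_, hR,
    fun i s => (hgap i s).trans
      (Zop_mono (T := T) (x := x) (st := st) (st' := ⟨σ', st.R, l'⟩) rfl hle i s)⟩, ?_⟩
  · have h : l' ω = 0 := h
    rcases hpt ω with ⟨hW0, hV0, -⟩ | ⟨hW1, i₀, -, hV1, hVj⟩
    · rw [hlval, hW0, sub_zero, mul_one] at h
      obtain ⟨k, hk, hk'⟩ := hoff ω h
      exact ⟨k, by simp [hval, hW0, hV0, hk], fun j hj => by simp [hval, hW0, hV0, hk' j hj]⟩
    · exact ⟨i₀, by simp [hval, hW1, hV1], fun j hj => by simp [hval, hW1, hVj j hj]⟩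
  · refine Vpot_lower hok hμ hγ hl hl'l' hll h0 h1 hgap rfl hle fun ω h => ?_
    have h : l' ω = 1 := h
    rcases hpt ω with ⟨hW0, hV0, -⟩ | ⟨hW1, -⟩
    · rw [Fval_apply, Fval_apply]
      refine Finset.sum_le_sum fun i _ => ?_
      have he : σ' i ω = st.sig i ω := by simp [hval, hW0, hV0]
      exact add_le_add
        (pay_mono (st := st) (st' := ⟨σ', st.R, l'⟩) hok hγ rfl hle (hgap i) he (h0 i ω)
          (by linarith [h1 i ω]))
        (mul_le_mul_of_nonneg_left
          (sub_le_sub_left (act_mono (st := st) (st' := ⟨σ', st.R, l'⟩) hle i ω) _) (beta0_bounds hok).1.le)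
    · rw [hlval, hW1, sub_self, mul_zero] at h
      exact absurd h zero_ne_one

/-- channels which cost more than they bring are switched off -/
theorem cleanSpec (T : SMasa M Ω) (P : Params) (x : M) : T.CleanSpec P x := by
  intro hok S st hμ hγ _ _ _ hinv
  have hε := hok.ε_pos
  have hb := (beta0_bounds hok).1
  have h1 : ∀ i ω, st.sig i ω ≤ 1 - P.ε := fun i ω => by linarith [hinv.sig_le i ω]
  set e : Fin P.r → C(Ω, ℝ) := fun i =>
    st.live * T.pos (st.sig i) * T.pos (ContinuousMap.const Ω P.β₀ - T.fval P x st i) with he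
  have hee : ∀ i, e i * e i = e i := fun i => by
    simp only [he]
    rw [mul_mul_mul_comm, mul_mul_mul_comm st.live, hinv.live_idem, T.pos_mul_self,
      T.pos_mul_self]
  have hoff1 : ∀ i ω, e i ω = 1 → st.live ω = 1 ∧ T.act P st i ω = 1 ∧
      T.fval P x st i ω ≤ P.β₀ := by
    intro i ω h
    simp only [he, ContinuousMap.mul_apply] at h
    rcases idem_zero_or_one hinv.live_idem ω with a | a
    · simp [a] at h
    rcases idem_zero_or_one (T.pos_mul_self (st.sig i)) ω with b | b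
    · simp [b] at h
    rw [a, b, one_mul, one_mul] at h
    have := T.nonneg_of_pos_eq_one h
    simp only [ContinuousMap.sub_apply, ContinuousMap.const_apply] at this
    exact ⟨a, b, by linarith⟩
  set σ' : Fin P.r → C(Ω, ℝ) := fun i => st.sig i * (1 - e i) with hσ'
  have hval : ∀ i ω, σ' i ω = st.sig i ω * (1 - e i ω) := fun i ω => rfl
  have hcases : ∀ i ω, (e i ω = 0 ∧ σ' i ω = st.sig i ω) ∨ (e i ω = 1 ∧ σ' i ω = 0) := by
    intro i ω
    rcases idem_zero_or_one (hee i) ω with h | h <;> simp [hval, h]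
  have hle : ∀ i, σ' i ≤ st.sig i := fun i => ContinuousMap.le_def.2 fun ω => by
    rcases hcases i ω with ⟨-, h⟩ | ⟨-, h⟩ <;> rw [h]
    exact hinv.sig_nonneg i ω
  set st' : TSt M Ω P.r := ⟨σ', st.R, st.live⟩ with hst'
  have hpos : ∀ i, T.act P st' i ≤ T.act P st i * (1 - e i) := fun i =>
    T.pos_le_of_pos (by
      have h1e : (1 - e i) * (1 - e i) = 1 - e i := by
        rw [sub_mul, one_mul, mul_sub, mul_one, hee, sub_self, sub_zero]
      rw [SMasa.act, mul_mul_mul_comm, T.pos_mul_self, h1e]) fun ω hω => by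
      have hω : 0 < σ' i ω := hω
      rcases hcases i ω with ⟨h', h⟩ | ⟨-, h⟩
      · rw [h] at hω
        simp [SMasa.act, h', T.pos_eq_one_of_pos hω]
      · rw [h] at hω; exact absurd hω (lt_irrefl 0)
  have hpay : ∀ i ω, st.live ω = 1 →
      T.fval P x st i ω + P.β₀ * (1 - T.act P st i ω) ≤
        T.fval P x st' i ω + P.β₀ * (1 - T.act P st' i ω) := by
    intro i ω _
    have hp : T.act P st' i ω ≤ T.act P st i ω * (1 - e i ω) := hpos i ω
    rcases hcases i ω with ⟨h', h⟩ | ⟨h', h⟩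
    · refine add_le_add (pay_mono (st := st) (st' := st') hok hγ rfl hle (hinv.gap i) h
        (hinv.sig_nonneg i ω) (by linarith [h1 i ω])) ?_
      rw [h', sub_zero, mul_one] at hp
      exact mul_le_mul_of_nonneg_left (by linarith) hb.le
    · obtain ⟨-, ha, hf⟩ := hoff1 i ω h'
      rw [h', sub_self, mul_zero] at hp
      have hp0 : 0 ≤ T.act P st' i ω := idem_nonneg (T.pos_mul_self _) ω
      have hz : T.act P st' i ω = 0 := le_antisymm hp hp0
      have hfz : T.fval P x st' i ω = 0 := by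
        rw [fval_apply hε, show st'.sig i ω = 0 from h]
        simp [Two.psiC, Two.psi, Two.spOf, Two.phi]
      rw [ha, hz, hfz]
      linarith
  refine ⟨st', ⟨hinv.live_idem, fun i => ContinuousMap.le_def.2 fun ω => ?_, fun i ω => ?_,
    fun ω h => ?_, hinv.R_sa, fun i s => (hinv.gap i s).trans
      (Zop_mono (T := T) (x := x) (st := st) (st' := st') rfl hle i s)⟩, ?_, rfl, ?_⟩
  · show (0 : ℝ) ≤ σ' i ω
    rcases hcases i ω with ⟨-, h⟩ | ⟨-, h⟩ <;> rw [h]
    exact hinv.sig_nonneg i ω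
  · exact le_trans (hle i ω) (hinv.sig_le i ω)
  · have h : st.live ω = 0 := h
    have h0 : ∀ i, σ' i ω = st.sig i ω := fun i => by simp [hval, he, h]
    obtain ⟨i, hi, hj⟩ := hinv.assigned ω h
    exact ⟨i, (h0 i).trans hi, fun j hij => (h0 j).trans (hj j hij)⟩
  · refine Vpot_lower hok hμ hγ hinv.live_idem hinv.live_idem le_rfl hinv.sig_nonneg h1 hinv.gap
      rfl hle fun ω h => ?_
    rw [Fval_apply, Fval_apply]
    exact Finset.sum_le_sum fun i _ => hpay i ω h
  · intro i ω hω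
    have hω : st.live ω = 1 := hω
    rcases hcases i ω with ⟨h', h⟩ | ⟨-, h⟩
    · rcases (hinv.sig_nonneg i ω).eq_or_lt with h0 | h0
      · exact .inl (h.trans h0.symm)
      refine .inr (le_trans ?_ (pay_mono (st := st) (st' := st') hok hγ rfl hle (hinv.gap i) h
        (hinv.sig_nonneg i ω) (by linarith [h1 i ω])))
      have h0 : 0 < st.sig i ω := h0
      simp only [he, ContinuousMap.mul_apply, hω, T.pos_eq_one_of_pos h0, one_mul] at h'
      have := T.nonpos_of_pos_eq_zero h'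
      simp only [ContinuousMap.sub_apply, ContinuousMap.const_apply] at this
      linarith
    · exact .inl h

end Vale.Agent.P078.T3.Moves
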