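import Mathlib
import Vale.Agent.P078.TwoStep
import Vale.Agent.P078.Type3.Step.Basics
import Vale.Agent.P078.Type3.Moves.Expand
import Vale.Agent.P078.Type3.Moves.Lower

/-! The effect of a move on the potential of the trace-free walk. -/

noncomputable section

open scoped ComplexOrder

set_option linter.unusedSectionVars false

namespace Vale.Agent.P078.T3.Moves

open Chan
open TMasa (ypm vpm)

universe u v

variable {M : Type u} [CStarAlgebra M] [PartialOrder M] [StarOrderedRing M]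
  {Ω : Type v} [TopologicalSpace Ω] [CompactSpace Ω] [T2Space Ω]
  {T : SMasa M Ω} {P : Params} {x : M}

/-- the constant of the expansion of a barrier -/
def CA (γ H R₀ : ℝ) : ℝ := 11 * (1 / γ + 1) ^ 4 * (2 * H + R₀ + 1) ^ 3

/-- the bound of the expansion of the constraint -/
def Bmove (P : Params) (γ H R₀ : ℝ) : ℝ := TMasa.moveB P.r (1000 / P.ε ^ 8) γ H R₀

lemma Zop_move (st : TSt M Ω P.r) (N : Fin P.r → Bool → M) (ρ t : ℝ)
    (h h2 : Fin P.r → C(Ω, ℝ)) (i : Fin P.r) (s : Bool) :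
    T.Zop P x (T.move P x st N ρ t h h2) i s =
      T.Zop P x st i s - Dop (vpm x s) (N i s) ρ t (T.emb (h i)) (T.emb (h2 i)) := by
  simp only [SMasa.Zop, SMasa.move, map_add, map_smul, mul_add, add_mul]
  abel

lemma sig_move (st : TSt M Ω P.r) (N : Fin P.r → Bool → M) (ρ t : ℝ)
    (h h2 : Fin P.r → C(Ω, ℝ)) (i : Fin P.r) (ω : Ω) :
    (T.move P x st N ρ t h h2).sig i ω = st.sig i ω + (t * h i ω + t ^ 2 * h2 i ω) := by
  simp [SMasa.move]

lemma abs_step_le {t H a b : ℝ} (ht0 : 0 ≤ t) (ht1 : t ≤ 1) (ha : |a| ≤ H) (hb : |b| ≤ H) :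
    |t * a + t ^ 2 * b| ≤ 2 * t * H := by
  have ht2 : t ^ 2 ≤ t := by nlinarith
  refine (abs_add_le _ _).trans ?_
  rw [abs_mul, abs_mul, abs_of_nonneg ht0, abs_of_nonneg (sq_nonneg t)]
  nlinarith [mul_le_mul_of_nonneg_left ha ht0, mul_le_mul ht2 hb (abs_nonneg _) ht0]

lemma aval_move {γ H R₀ ρ t : ℝ} (hx : IsSelfAdjoint x) (hx1 : ‖x‖ ≤ 1) {st : TSt M Ω P.r}
    {N : Fin P.r → Bool → M} (hb : ∀ i s, Band γ (T.Zop P x st i s) (N i s))
    {h h2 : Fin P.r → C(Ω, ℝ)} (hρ : 0 ≤ ρ) (hρ' : ρ ≤ R₀) (ht0 : 0 ≤ t) (ht1 : t ≤ 1)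
    (hh : ∀ i, ‖h i‖ ≤ H) (hh2 : ∀ i, ‖h2 i‖ ≤ H) (htγ : 2 * t * H ≤ γ) (i : Fin P.r) (ω : Ω) :
    Exp3 (2 * CA γ H R₀) t (T.Asum P x (T.move P x st N ρ t h h2) i ω)
      (T.Asum P x st i ω) (T.Kch P x st N i (h i) ω)
      ((T.Kch P x st N i (h2 i) + T.Cch P x st N i (h i) - ρ • T.Bch P x st N i) ω) := by
  have one : ∀ s, Exp3 (CA γ H R₀) t (T.aval P x (T.move P x st N ρ t h h2) i s ω)
      (T.aval P x st i s ω) (T.K (T.Xb P x st N i s) (h i) ω)
      (T.K (T.Xb P x st N i s) (h2 i) ω - ρ * T.E (Bop (vpm x s) (T.Zop P x st i s) (N i s)) ω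
        + T.E (T.Xb P x st N i s * T.emb (h i) * T.Xb P x st N i s * T.emb (h i)
            * T.Xb P x st N i s) ω) := fun s => by
    obtain ⟨hv, hv1, -⟩ := SMasa.vpm_facts hx hx1 s
    have := avalExpand (T := T) (hb i s) hv1 hv hρ hρ' ht0 ht1 (hh i) (hh2 i) htγ ω
    rw [← Zop_move] at this
    exact this
  convert (one true).add' (one false) using 1
  · rfl
  · rfl
  · rfl
  · simp only [SMasa.Kch, SMasa.Cch, SMasa.Bch, LinearMap.add_apply, ContinuousMap.add_apply,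
      ContinuousMap.sub_apply, ContinuousMap.smul_apply, smul_eq_mul]
    ring

/-- expansion of the channels along a move -/
lemma fval_move (hok : P.Ok) {S : Smalls} {st : TSt M Ω P.r} {N : Fin P.r → Bool → M}
    (hC : T.Ctx P x S st N) {H R₀ ρ t : ℝ} {h h2 : Fin P.r → C(Ω, ℝ)} (hρ : 0 ≤ ρ) (hρ' : ρ ≤ R₀)
    (ht0 : 0 ≤ t) (ht1 : t ≤ 1) (htγ : 2 * t * H ≤ S.γ) (htε : 2 * t * H ≤ P.ε) (hH : 0 ≤ H)
    (hh : ∀ i, ‖h i‖ ≤ H) (hh2 : ∀ i, ‖h2 i‖ ≤ H) (ω : Ω) :
    |(∑ i, T.fval P x (T.move P x st N ρ t h h2) i ω) - ((∑ i, T.fval P x st i ω)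
        + t * (∑ i, T.Jch P x st N i (h i)) ω
        + t ^ 2 * (∑ i, T.F22 P x st N ρ i (h i) (h2 i)) ω)|
      ≤ Bmove P S.γ H R₀ * t ^ 3 ∧
    |(∑ i, T.Jch P x st N i (h i)) ω| ≤ Bmove P S.γ H R₀ ∧
    |(∑ i, T.F22 P x st N ρ i (h i) (h2 i)) ω| ≤ Bmove P S.γ H R₀ := by
  have hε := hok.ε_pos
  set st' := T.move P x st N ρ t h h2 with hst'
  set K := 1000 / P.ε ^ 8 with hK
  have hK0 : 0 ≤ K := by rw [hK]; positivity
  set Cm := TMasa.moveConst2 K S.γ H R₀ with hCmdef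
  have habs : ∀ i, |h i ω| ≤ H ∧ |h2 i ω| ≤ H := fun i =>
    ⟨((h i).norm_coe_le_norm ω).trans (hh i), ((h2 i).norm_coe_le_norm ω).trans (hh2 i)⟩
  have hs0 : ∀ i, 0 ≤ st.sig i ω := fun i => hC.inv.sig_nonneg i ω
  have hsl : ∀ i, st.sig i ω ≤ 1 - 2 * P.ε := fun i => hC.inv.sig_le i ω
  have hd : ∀ i, |t * h i ω + t ^ 2 * h2 i ω| ≤ 2 * t * H := fun i =>
    abs_step_le ht0 ht1 (habs i).1 (habs i).2
  have hR : 0 ≤ R₀ := hρ.trans hρ'
  have hγ : 0 < S.γ → 0 ≤ CA S.γ H R₀ := fun _ => by unfold CA; positivity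
  have hfac : max (2 + 2 * H + 6 * H ^ 2) (2 * CA S.γ H R₀) ≤ Cm :=
    le_add_of_nonneg_right (by positivity)
  have hA : ∀ i, Exp3 Cm t (T.Asum P x st' i ω) (T.Asum P x st i ω)
      (T.Kch P x st N i (h i) ω)
      ((T.Kch P x st N i (h2 i) + T.Cch P x st N i (h i) - ρ • T.Bch P x st N i) ω) := fun i =>
    (aval_move hC.sa hC.norm_le hC.band hρ hρ' ht0 ht1 hh hh2 htγ i ω).mono
      ((le_max_right _ _).trans hfac) ht0
  have hsig : ∀ i, st'.sig i ω = st.sig i ω + (t * h i ω + t ^ 2 * h2 i ω) := fun i =>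
    sig_move st N ρ t h h2 i ω
  have hphi : ∀ i, Exp3 Cm t (Two.phi (st'.sig i ω)) (Two.phi (st.sig i ω))
      (Two.dphi (st.sig i ω) * h i ω)
      (Two.dphi (st.sig i ω) * h2 i ω - 2 * h i ω ^ 2) := fun i => by
    rw [hsig]
    exact (Two.phi_move (H := H) (hs0 i) (by linarith [hsl i]) ht0 ht1 (habs i).1
      (habs i).2).mono ((le_max_left _ _).trans hfac) ht0
  have hpsi := fun i => Two.psi_move (H := H) (Two.psiTaylor hε hok.ε_le) (hs0 i) (hsl i) ht0 ht1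
    (habs i).1 (habs i).2 (by linarith [(abs_le.1 (hd i)).2, hsl i])
  have hCK : K * (8 * H ^ 3 + 3 * H ^ 2) ≤ Cm ∧ K * H ≤ Cm ∧ K * (H + H ^ 2) ≤ Cm := by
    have h0 : 0 ≤ max (2 + 2 * H + 6 * H ^ 2) (2 * CA S.γ H R₀) := le_max_of_le_left (by positivity)
    have e : Cm = max (2 + 2 * H + 6 * H ^ 2) (2 * CA S.γ H R₀)
        + K * (8 * H ^ 3 + 4 * H ^ 2 + H + 1) := rfl
    have k1 : 0 ≤ K * H := by positivity
    have k2 : 0 ≤ K * H ^ 2 := by positivity
    have k3 : 0 ≤ K * H ^ 3 := by positivity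
    refine ⟨?_, ?_, ?_⟩ <;> rw [e] <;> nlinarith
  have hCm0 : 0 ≤ Cm := (mul_nonneg hK0 hH).trans hCK.2.1
  have hmin : ∀ i, min (st.sig i ω) 1 = st.sig i ω := fun i =>
    min_eq_left (by linarith [hsl i])
  have hap : ∀ i, T.Jch P x st N i (h i) ω = Two.dpsi P.ε (st.sig i ω) * h i ω
        - (Two.dphi (st.sig i ω) * h i ω * T.Asum P x st i ω
          + Two.phi (st.sig i ω) * T.Kch P x st N i (h i) ω)
      ∧ T.F22 P x st N ρ i (h i) (h2 i) ω
        = Two.dpsi P.ε (st.sig i ω) * h2 i ω + Two.hpsi P.ε (st.sig i ω) * h i ω ^ 2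
        - ((Two.dphi (st.sig i ω) * h2 i ω - 2 * h i ω ^ 2) * T.Asum P x st i ω
          + Two.dphi (st.sig i ω) * h i ω * T.Kch P x st N i (h i) ω
          + Two.phi (st.sig i ω)
            * (T.Kch P x st N i (h2 i) + T.Cch P x st N i (h i) - ρ • T.Bch P x st N i) ω) :=
    fun i => by
    constructor
    · simp [SMasa.Jch, SMasa.cch, cphi2, comp1_apply (Two.continuous_dpsiC hε),
        comp1_apply Two.continuous_dphi, Two.dpsiC, hmin]
      ring
    · simp [SMasa.F22, SMasa.Fq, SMasa.Jch, SMasa.cch, cphi2,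
        comp1_apply (Two.continuous_dpsiC hε), comp1_apply (Two.continuous_hpsiC hε),
        comp1_apply Two.continuous_dphi, Two.dpsiC, Two.hpsiC, hmin]
      ring
  have hb1 : ∀ i, |T.Jch P x st N i (h i) ω| ≤ 20 * (Cm + 1) ^ 2 := fun i => by
    rw [(hap i).1]
    refine (abs_sub _ _).trans ((add_le_add ((hpsi i).2.1.trans hCK.2.1)
      (abs_add_le _ _)).trans ?_)
    have q1 := mul_le_mul (hphi i).h1 (hA i).h0 (abs_nonneg _) hCm0
    have q2 := mul_le_mul (hphi i).h0 (hA i).h1 (abs_nonneg _) hCm0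
    rw [← abs_mul] at q1 q2
    nlinarith
  have hb2 : ∀ i, |T.F22 P x st N ρ i (h i) (h2 i) ω| ≤ 20 * (Cm + 1) ^ 2 := fun i => by
    rw [(hap i).2]
    refine (abs_sub _ _).trans ((add_le_add ((hpsi i).2.2.trans hCK.2.2)
      (abs_add_three _ _ _)).trans ?_)
    have q1 := mul_le_mul (hphi i).h2 (hA i).h0 (abs_nonneg _) hCm0
    have q2 := mul_le_mul (hphi i).h1 (hA i).h1 (abs_nonneg _) hCm0
    have q3 := mul_le_mul (hphi i).h0 (hA i).h2 (abs_nonneg _) hCm0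
    rw [← abs_mul] at q1 q2 q3
    nlinarith
  have hBeq : Bmove P S.γ H R₀ = ∑ _i : Fin P.r, 20 * (Cm + 1) ^ 2 := by
    simp [Bmove, TMasa.moveB, hCmdef, hK]
  simp only [ContinuousMap.sum_apply, hBeq]
  refine ⟨?_, (Finset.abs_sum_le_sum_abs _ _).trans (Finset.sum_le_sum fun i _ => hb1 i),
    (Finset.abs_sum_le_sum_abs _ _).trans (Finset.sum_le_sum fun i _ => hb2 i)⟩
  rw [Finset.mul_sum, Finset.mul_sum, ← Finset.sum_add_distrib, ← Finset.sum_add_distrib,
    ← Finset.sum_sub_distrib, Finset.sum_mul]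
  refine (Finset.abs_sum_le_sum_abs _ _).trans (Finset.sum_le_sum fun i _ => ?_)
  have key := Exp3.sub_mul (Cs := Cm) (s := Two.psiC P.ε (st'.sig i ω))
    (s0 := Two.psi P.ε (st.sig i ω)) (s1 := Two.dpsi P.ε (st.sig i ω) * h i ω)
    (s2 := Two.dpsi P.ε (st.sig i ω) * h2 i ω + Two.hpsi P.ε (st.sig i ω) * h i ω ^ 2)
    ht0 ht1 (by
      rw [hsig]
      exact (hpsi i).1.trans (mul_le_mul_of_nonneg_right hCK.1 (pow_nonneg ht0 3)))
    (hphi i) (hA i)
  rw [← (hap i).1, ← (hap i).2] at key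
  have e0 : T.fval P x st i ω
      = Two.psi P.ε (st.sig i ω) - Two.phi (st.sig i ω) * T.Asum P x st i ω := by
    rw [fval_apply hε, Two.psiC, hmin]
  rw [fval_apply hε, e0]
  exact key.trans (mul_le_mul_of_nonneg_right (by nlinarith) (pow_nonneg ht0 3))

/-- pointwise expansion of the Huber term with its linear part -/
lemma hub_step {y d t f1 f2 B μ b c : ℝ} (ht0 : 0 ≤ t) (ht1 : t ≤ 1) (hμ : 0 ≤ μ) (hμ1 : μ ≤ 1)
    (hb : b = 1 ∨ b = 0 ∧ (y ≤ -1 / 2 ∨ 3 / 2 ≤ y)) (hd : |d| ≤ 1 / 2)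
    (he : |d - (t * f1 + t ^ 2 * f2)| ≤ B * t ^ 3) (hf1 : |f1| ≤ B) (hf2 : |f2| ≤ B) :
    Profile.hub (y - d) + μ * (y - d + c) ≤ Profile.hub y + μ * (y + c)
      - t * ((Profile.dhub y + μ) * f1) - t ^ 2 * ((Profile.dhub y + μ) * f2)
      + t ^ 2 / 2 * (b * (f1 * f1)) + (3 * B + 4 * B ^ 2) * t ^ 3 := by
  have hB : 0 ≤ B := (abs_nonneg _).trans hf1
  have ht3 := pow_nonneg ht0 3
  have hμe : μ * (y - d + c) ≤ μ * (y + c) - t * (μ * f1) - t ^ 2 * (μ * f2) + B * t ^ 3 := by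
    have h1 : μ * |d - (t * f1 + t ^ 2 * f2)| ≤ B * t ^ 3 :=
      (mul_le_of_le_one_left (abs_nonneg _) hμ1).trans he
    have h2 := mul_le_mul_of_nonneg_left (neg_abs_le (d - (t * f1 + t ^ 2 * f2))) hμ
    linarith
  rcases hb with rfl | ⟨rfl, hy⟩
  · have := hub_expand (x := y) zero_le_one le_rfl ht0 ht1 he hf1 hf2
    simp only [one_mul] at this ⊢
    nlinarith [sq_nonneg B]
  · obtain ⟨hd1, hd2⟩ := abs_le.1 hd
    obtain ⟨he1, he2⟩ := abs_le.1 he
    rcases hy with hy | hy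
    · have e : Profile.dhub y = 0 := by
        rw [Profile.dhub, min_eq_left (by linarith : y ≤ 1), max_eq_left (by linarith : y ≤ 0)]
      rw [Profile.hub_zero_of_nonpos (by linarith : y ≤ 0),
        Profile.hub_zero_of_nonpos (by linarith : y - d ≤ 0), e]
      nlinarith
    · have hub1 : ∀ z : ℝ, 1 ≤ z → Profile.hub z = z - 1 / 2 := fun z hz => by
        simp [Profile.hub, min_eq_right hz]
      rw [hub1 y (by linarith), hub1 (y - d) (by linarith),
        show Profile.dhub y = 1 by simp [Profile.dhub, min_eq_right (show (1:ℝ) ≤ y by linarith)]]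
      nlinarith

/-- exact splitting of the correction -/
lemma n2_R_move {v N R : M} (hv1 : ‖v‖ ≤ 1) (hN : IsStarProjection N) {ρ t H R₀ : ℝ}
    (hρ : 0 ≤ ρ) (hρ' : ρ ≤ R₀) (ht0 : 0 ≤ t) (ht1 : t ≤ 1) {h h2 : C(Ω, ℝ)} (hh : ‖h‖ ≤ H)
    (hh2 : ‖h2‖ ≤ H) :
    T.n2 ((R + (v * (t • T.emb h + t ^ 2 • T.emb h2) * v
        - Dop v N ρ t (T.emb h) (T.emb h2))) * v) ^ 2
      ≤ T.n2 (R * v) ^ 2 + t * (2 * T.ip (R * v) (T.offv v N h))
        + t ^ 2 * (T.n2 (T.offv v N h) ^ 2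
          + 2 * T.ip (R * v) (T.offv v N h2 + ρ • ((1 - N) * v)))
        + 3 * (2 * H + R₀) ^ 2 * t ^ 3 := by
  set R1 := T.offv v N h with hR1
  set R2 := T.offv v N h2 + ρ • ((1 - N) * v) with hR2
  have e : (R + (v * (t • T.emb h + t ^ 2 • T.emb h2) * v - Dop v N ρ t (T.emb h) (T.emb h2))) * v
      = R * v + (t • R1 + t ^ 2 • R2) := by
    simp only [hR1, hR2, SMasa.offv, Dop, mul_add, add_mul, sub_mul, mul_smul_comm,
      smul_mul_assoc, smul_sub, smul_add, smul_smul]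
    abel
  rw [e, T.n2_sq, T.n2_sq]
  simp only [T.ip_add_left, T.ip_add_right, T.ip_smul_left, T.ip_smul_right,
    T.ip_comm R1 (R * v), T.ip_comm R2 (R * v), T.ip_comm R2 R1, ← T.n2_sq]
  have hH : 0 ≤ H := (norm_nonneg h).trans hh
  have hR : 0 ≤ R₀ := hρ.trans hρ'
  have hoff : ∀ f : C(Ω, ℝ), ‖f‖ ≤ H → T.n2 (T.offv v N f) ≤ 2 * H := fun f hf => by
    have hn := norm_sandwich_le hv1 (T.emb f)
    rw [T.emb_norm] at hn
    refine (T.n2_le_norm _).trans ((norm_mul_le _ _).trans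
      ((mul_le_of_le_one_right (norm_nonneg _) hv1).trans ((norm_sub_le _ _).trans ?_)))
    have := norm_sandwich_le (proj_norm_le hN) (v * T.emb f * v)
    linarith
  have hp1 : T.n2 ((1 - N) * v) ≤ 1 := (T.n2_le_norm _).trans ((norm_mul_le _ _).trans
    (mul_le_one₀ (proj_norm_le hN.one_sub) (norm_nonneg _) hv1))
  have h2' : T.n2 R2 ≤ 2 * H + R₀ := by
    refine (T.n2_add _ _).trans (add_le_add (hoff h2 hh2) ?_)
    rw [T.n2_smul, abs_of_nonneg hρ]
    exact (mul_le_mul hρ' hp1 (T.n2_nonneg _) hR).trans (by linarith)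
  have h3' : T.n2 R1 ≤ 2 * H + R₀ := (hoff h hh).trans (by linarith)
  have h4 : T.ip R1 R2 ≤ (2 * H + R₀) * (2 * H + R₀) :=
    (le_abs_self _).trans ((T.abs_ip_le _ _).trans
      (mul_le_mul h3' h2' (T.n2_nonneg _) (by linarith)))
  have h5 : T.n2 R2 ^ 2 ≤ (2 * H + R₀) ^ 2 := pow_le_pow_left₀ (T.n2_nonneg _) h2' 2
  have ht4 : t ^ 4 ≤ t ^ 3 := pow_le_pow_of_le_one ht0 ht1 (by norm_num)
  nlinarith [mul_le_mul_of_nonneg_left h4 (pow_nonneg ht0 3),
    mul_le_mul ht4 h5 (sq_nonneg _) (pow_nonneg ht0 3)]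

/-- a move changes the potential by its linear and second order parts -/
theorem moveSpec (T : SMasa M Ω) (P : Params) (x : M) : T.MoveSpec P x := by
  intro hok S H R₀ hμ hμ1 hγ hA hH hR
  have hε := hok.ε_pos
  have hb0 := (beta0_bounds hok).1
  set B := Bmove P S.γ H R₀ with hB
  set CR := 3 * (2 * H + R₀) ^ 2 with hCR
  have hCA : 0 ≤ CA S.γ H R₀ := by unfold CA; positivity
  obtain ⟨t₀, ht₀, k1, k2, k3, k4, k5⟩ : ∃ t₀ : ℝ, 0 < t₀ ∧ t₀ ≤ 1 ∧
      2 * t₀ * H ≤ S.γ ∧ 2 * t₀ * H ≤ P.ε ∧ 2 * t₀ * H ≤ P.β₀ / 8 ∧ 3 * |B| * t₀ ≤ 1 / 2 := by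
    set m := min S.γ (min P.ε (min (P.β₀ / 8) (1 / 2))) with hm
    have hm0 : 0 < m := lt_min hγ (lt_min hε (lt_min (by linarith) (by norm_num)))
    have hm2 : m ≤ 1 / 2 := (min_le_right _ _).trans ((min_le_right _ _).trans (min_le_right _ _))
    have hden : 0 < 2 * H + 3 * |B| + 1 := by positivity
    have e : m / (2 * H + 3 * |B| + 1) * (2 * H + 3 * |B| + 1) = m := div_mul_cancel₀ _ hden.ne'
    have hq : 0 < m / (2 * H + 3 * |B| + 1) := by positivity
    refine ⟨m / (2 * H + 3 * |B| + 1), hq, ?_, ?_, ?_, ?_, ?_⟩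
    · rw [div_le_one hden]; linarith [abs_nonneg B]
    all_goals
      nlinarith [min_le_left S.γ (min P.ε (min (P.β₀ / 8) (1 / 2))),
        (min_le_right S.γ (min P.ε (min (P.β₀ / 8) (1 / 2)))).trans (min_le_left _ _),
        (min_le_right S.γ (min P.ε (min (P.β₀ / 8) (1 / 2)))).trans
          ((min_le_right _ _).trans (min_le_left _ _)),
        mul_nonneg hq.le hH, mul_nonneg hq.le (abs_nonneg B)]
  refine ⟨3 * |B| + 4 * B ^ 2 + P.r * (S.μ * (2 * CA S.γ H R₀) + 2 * (S.A * S.μ * CR)), t₀,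
    by positivity, ht₀, ?_⟩
  intro st N hC ρ t h h2 hρ hρ' ht0 htt hh hh2 hzero
  have ht1 : t ≤ 1 := htt.trans k1
  have hmono : ∀ c : ℝ, 0 ≤ c → t * c ≤ t₀ * c := fun c hc => mul_le_mul_of_nonneg_right htt hc
  have hm2 := hmono (2 * H) (by positivity)
  have htγ : 2 * t * H ≤ S.γ := by linarith
  have htε : 2 * t * H ≤ P.ε := by linarith
  have htβ : 2 * t * H ≤ P.β₀ / 8 := by linarith
  have hinv := hC.inv
  set st' := T.move P x st N ρ t h h2 with hst'
  have hd : ∀ i ω, |t * h i ω + t ^ 2 * h2 i ω| ≤ 2 * t * H := fun i ω =>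
    abs_step_le ht0 ht1 (((h i).norm_coe_le_norm ω).trans (hh i))
      (((h2 i).norm_coe_le_norm ω).trans (hh2 i))
  have hsig : ∀ i ω, st'.sig i ω = st.sig i ω + (t * h i ω + t ^ 2 * h2 i ω) :=
    sig_move st N ρ t h h2
  have hdead : ∀ i ω, (st.sig i ω = 0 ∨ st.live ω = 0) → st'.sig i ω = st.sig i ω :=
    fun i ω hc => by rw [hsig, (hzero i ω hc).1, (hzero i ω hc).2]; ring
  -- a channel which moves stays on
  have hon : ∀ i ω, (st'.sig i ω = st.sig i ω) ∨ (0 < st.sig i ω ∧ 0 < st'.sig i ω) := fun i ω => by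
    rcases eq_or_ne (st.sig i ω) 0 with h0 | h0
    · exact .inl (hdead i ω (.inl h0))
    rcases idem_zero_or_one hinv.live_idem ω with hl | hl
    · exact .inl (hdead i ω (.inr hl))
    have hf := (hC.clean i ω hl).resolve_left h0
    have := T.fval_le hε hγ hinv i ω
    refine .inr ⟨by linarith, ?_⟩
    rw [hsig]
    linarith [(abs_le.1 (hd i ω)).1]
  have hact : ∀ i, T.act P st' i = T.act P st i := fun i =>
    le_antisymm
      (T.pos_le_pos fun ω hω => by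
        rcases hon i ω with e | e
        · rwa [e] at hω
        · exact e.1)
      (T.pos_le_pos fun ω hω => by
        rcases hon i ω with e | e
        · rwa [e]
        · exact e.2)
  refine ⟨fun i ω => ?_, fun i ω => ?_, fun i s => ?_, fun i s => ?_, fun ω hω => ?_, ?_⟩
  · show (0 : ℝ) ≤ st'.sig i ω
    rcases hon i ω with e | e
    · rw [e]; exact hinv.sig_nonneg i ω
    · exact e.2.le
  · rw [hsig]; linarith [(abs_le.1 (hd i ω)).2, hinv.sig_le i ω]
  · obtain ⟨hv, hv1, -⟩ := SMasa.vpm_facts hC.sa hC.norm_le s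
    have hu : ∀ f : C(Ω, ℝ), IsSelfAdjoint (vpm x s * T.emb f * vpm x s) := fun f => by
      simpa [hv.star_eq] using (T.emb_selfAdjoint f).conjugate (vpm x s)
    show IsSelfAdjoint (st.R i s + _)
    refine (hinv.R_sa i s).add (IsSelfAdjoint.sub ?_ ?_)
    · rw [← map_smul, ← map_smul, ← map_add]; exact hu _
    · unfold Dop
      refine IsSelfAdjoint.sub ?_
        ((IsSelfAdjoint.all _).smul (hC.band i s).proj.one_sub.isSelfAdjoint)
      rw [← map_smul, ← map_smul, ← map_add]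
      have h3 := (hu (t • h i + t ^ 2 • h2 i)).conjugate (N i s)
      rwa [(hC.band i s).proj.isSelfAdjoint.star_eq] at h3
  · obtain ⟨hv, hv1, -⟩ := SMasa.vpm_facts hC.sa hC.norm_le s
    rw [Zop_move]
    exact (resExpand T (hC.band i s) hv1 hv hρ hρ' ht0 ht1 (hh i) (hh2 i) htγ).1
  · obtain ⟨i, hi, hj⟩ := hinv.assigned ω hω
    exact ⟨i, by rw [hdead i ω (Or.inr hω), hi], fun j hji => by
      rw [hdead j ω (Or.inr hω), hj j hji]⟩
  set F1 : C(Ω, ℝ) := ∑ i, T.Jch P x st N i (h i) with hF1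
  set F2 : C(Ω, ℝ) := ∑ i, T.F22 P x st N ρ i (h i) (h2 i) with hF2
  -- the constraint part
  have hkey : st'.live * (chub2 (T.xval P x st')
        + S.μ • (T.xval P x st' + ContinuousMap.const Ω P.off)) ≤
      st.live * (chub2 (T.xval P x st) + S.μ • (T.xval P x st + ContinuousMap.const Ω P.off))
      + ((-t) • (T.Lam P x S st * F1)
      + ((-(t ^ 2)) • (T.Lam P x S st * F2)
      + ((t ^ 2 / 2) • (T.bandSet P x st * (F1 * F1))
      + ((3 * |B| + 4 * B ^ 2) * t ^ 3) • (1 : C(Ω, ℝ))))) := fun ω => by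
    show st.live ω * (Profile.hub (T.xval P x st' ω) + S.μ * (T.xval P x st' ω + P.off)) ≤
      st.live ω * (Profile.hub (T.xval P x st ω) + S.μ * (T.xval P x st ω + P.off))
        + (-t * (T.Lam P x S st ω * F1 ω) + (-(t ^ 2) * (T.Lam P x S st ω * F2 ω)
        + (t ^ 2 / 2 * (T.bandSet P x st ω * (F1 ω * F1 ω))
        + (3 * |B| + 4 * B ^ 2) * t ^ 3 * 1)))
    obtain ⟨he, hf1, hf2⟩ := fval_move hok hC hρ hρ' ht0 ht1 htγ htε hH hh hh2 ω
    rw [← hB, ← hF1, ← hF2] at he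
    rw [← hB, ← hF1] at hf1
    rw [← hB, ← hF2] at hf2
    rw [T.Lam_apply]
    rcases idem_zero_or_one hinv.live_idem ω with hl | hl
    · have hb : T.bandSet P x st ω = 0 := by simp [SMasa.bandSet, hl]
      simp only [hl, hb, zero_mul, mul_zero, zero_add, mul_one]
      positivity
    set y := T.xval P x st ω with hy
    set d := T.Fval P x st' ω - T.Fval P x st ω with hd'
    have hde : |d - (t * F1 ω + t ^ 2 * F2 ω)| ≤ |B| * t ^ 3 := by
      refine le_trans ?_ (mul_le_mul_of_nonneg_right (le_abs_self B) (pow_nonneg ht0 3))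
      refine le_trans (le_of_eq ?_) he
      rw [hd', Fval_apply, Fval_apply]
      simp only [Finset.sum_add_distrib, hact]
      congr 1
      ring
    have hdb : |d| ≤ 1 / 2 := by
      have ht2 : t ^ 2 ≤ t := by nlinarith
      have ht3 : t ^ 3 ≤ t := pow_le_of_le_one ht0 ht1 (by norm_num)
      have hB0 := abs_nonneg B
      have h1 : |t * F1 ω + t ^ 2 * F2 ω| ≤ 2 * t * |B| :=
        abs_step_le ht0 ht1 (hf1.trans (le_abs_self B)) (hf2.trans (le_abs_self B))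
      have h2 := abs_sub_abs_le_abs_sub d (t * F1 ω + t ^ 2 * F2 ω)
      have h3 := mul_le_mul_of_nonneg_left ht3 hB0
      have h4 := hmono (3 * |B|) (by positivity)
      linarith
    have hband : T.bandSet P x st ω = 1 ∨
        T.bandSet P x st ω = 0 ∧ (y ≤ -1 / 2 ∨ 3 / 2 ≤ y) := by
      simp only [SMasa.bandSet, ContinuousMap.mul_apply, hl, one_mul]
      rcases idem_zero_or_one
        (T.pos_mul_self (T.xval P x st + ContinuousMap.const Ω (1 / 2))) ω with a | a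
      · have := T.nonpos_of_pos_eq_zero a
        simp only [ContinuousMap.add_apply, ContinuousMap.const_apply, ← hy] at this
        exact .inr ⟨by rw [a, zero_mul], .inl (by linarith)⟩
      rcases idem_zero_or_one
        (T.pos_mul_self (ContinuousMap.const Ω (3 / 2) - T.xval P x st)) ω with b | b
      · have := T.nonpos_of_pos_eq_zero b
        simp only [ContinuousMap.sub_apply, ContinuousMap.const_apply, ← hy] at this
        exact .inr ⟨by rw [b, mul_zero], .inr (by linarith)⟩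
      · exact .inl (by rw [a, b, one_mul])
    have := hub_step (c := P.off) ht0 ht1 hμ hμ1 hband hdb hde (hf1.trans (le_abs_self B))
      (hf2.trans (le_abs_self B))
    rw [sq_abs] at this
    rw [show T.xval P x st' ω = y - d by simp only [hy, hd', xval_apply]; ring, hl]
    linarith
  have e1 := T.tau_mono hkey
  simp only [map_add, map_smul, smul_eq_mul, T.tau_one] at e1
  have hsum : ∑ i, T.tau (st'.sig i) = ∑ i, T.tau (st.sig i) + t * ∑ i, T.tau (h i)
      + t ^ 2 * ∑ i, T.tau (h2 i) := by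
    simp only [hst', SMasa.move, map_add, map_smul, smul_eq_mul, Finset.sum_add_distrib,
      Finset.mul_sum]
    ring
  have htr : ∀ i, T.tau (T.Asum P x st' i) ≤ T.tau (T.Asum P x st i)
      + t * T.tau (T.Kch P x st N i (h i))
      + t ^ 2 * T.tau (T.Kch P x st N i (h2 i) + T.Cch P x st N i (h i) - ρ • T.Bch P x st N i)
      + 2 * CA S.γ H R₀ * t ^ 3 := fun i => by
    have hle : T.Asum P x st' i ≤ T.Asum P x st i + (t • T.Kch P x st N i (h i)
        + (t ^ 2 • (T.Kch P x st N i (h2 i) + T.Cch P x st N i (h i) - ρ • T.Bch P x st N i)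
        + (2 * CA S.γ H R₀ * t ^ 3) • (1 : C(Ω, ℝ)))) := fun ω => by
      show _ ≤ T.Asum P x st i ω + (t * T.Kch P x st N i (h i) ω
        + (t ^ 2 * (T.Kch P x st N i (h2 i) + T.Cch P x st N i (h i) - ρ • T.Bch P x st N i) ω
        + 2 * CA S.γ H R₀ * t ^ 3 * 1))
      have := (abs_le.1 (aval_move hC.sa hC.norm_le hC.band hρ hρ' ht0 ht1 hh hh2 htγ i ω).err).2
      rw [← hst'] at this
      show T.Asum P x st' i ω ≤ _
      linarith
    have := T.tau_mono hle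
    simp only [map_add, map_smul, smul_eq_mul, T.tau_one] at this
    simp only [map_add, map_sub, map_smul, smul_eq_mul] at this ⊢
    linarith
  have hRle : ∀ i s, T.n2 (st'.R i s * vpm x s) ^ 2 ≤ T.n2 (st.R i s * vpm x s) ^ 2
      + t * (2 * T.ip (st.R i s * vpm x s) (T.offv (vpm x s) (N i s) (h i)))
      + t ^ 2 * (T.n2 (T.offv (vpm x s) (N i s) (h i)) ^ 2
          + 2 * T.ip (st.R i s * vpm x s)
            (T.offv (vpm x s) (N i s) (h2 i) + ρ • ((1 - N i s) * vpm x s)))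
      + CR * t ^ 3 := fun i s =>
    n2_R_move (SMasa.vpm_facts hC.sa hC.norm_le s).2.1 (hC.band i s).proj hρ hρ' ht0 ht1 (hh i)
      (hh2 i)
  have htrs := Finset.sum_le_sum fun i (_ : i ∈ Finset.univ) => htr i
  have hRs := Finset.sum_le_sum fun i (_ : i ∈ Finset.univ) =>
    add_le_add (hRle i true) (hRle i false)
  simp only [Finset.sum_add_distrib, ← Finset.mul_sum, Finset.sum_const, Finset.card_univ,
    Fintype.card_fin, nsmul_eq_mul] at htrs hRs
  rw [SMasa.lin, SMasa.sec, SMasa.Vpot, SMasa.Vpot, ← hF1, ← hF2]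
  simp only [Fintype.sum_bool, Finset.sum_add_distrib, ← Finset.mul_sum] at e1 htrs hRs ⊢
  rw [hsum]
  linarith [mul_le_mul_of_nonneg_left htrs hμ,
    mul_le_mul_of_nonneg_left hRs (mul_nonneg hA hμ)]

end Vale.Agent.P078.T3.Moves
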